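import Vale.Agent.P011LJ.Grp
import Vale.Agent.P011LQ.Sub
import Vale.Agent.P011ND.Top
import Vale.Agent.P011.H984.Full.BrgD

/-!
P011 (helper26): from the model to the trialitarian groups of the tree.
-/

set_option linter.all false

namespace Vale.Agent.P011LJ

open Vale.Agent.P011.D4 Vale.Agent.P011.D4.Oct Vale.Agent.P011.MPQ Vale.Agent.P011LD
open Equiv Function Vale.Agent.P011LH Vale.Agent.P011.H900 Vale.Agent.P011L

theorem pos8 {a b c x0 x1 x2 x3 x4 x5 x6 x7 : ℝ} (ha : a < 0) (hb : b < 0) (hc : c < 0)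
    (h : x0 ^ 2 - a * x1 ^ 2 - b * x2 ^ 2 + a * b * x3 ^ 2 -
      c * (x4 ^ 2 - a * x5 ^ 2 - b * x6 ^ 2 + a * b * x7 ^ 2) = 0) :
    x0 = 0 ∧ x1 = 0 ∧ x2 = 0 ∧ x3 = 0 ∧ x4 = 0 ∧ x5 = 0 ∧ x6 = 0 ∧ x7 = 0 := by
  have z : ∀ {t : ℝ} (x : ℝ), 0 < t → 0 ≤ t * x ^ 2 ∧ (t * x ^ 2 ≤ 0 → x = 0) := fun x p =>
    ⟨by positivity, fun e => pow_eq_zero_iff two_ne_zero |>.1
      (le_antisymm (nonpos_of_mul_nonpos_right e p) (sq_nonneg x))⟩
  have p0 := z x0 one_pos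
  have p1 := z x1 (neg_pos.2 ha)
  have p2 := z x2 (neg_pos.2 hb)
  have p3 := z x3 (mul_pos_of_neg_of_neg ha hb)
  have p4 := z x4 (neg_pos.2 hc)
  have p5 := z x5 (mul_pos_of_neg_of_neg hc ha)
  have p6 := z x6 (mul_pos_of_neg_of_neg hc hb)
  have p7 := z x7 (mul_pos (neg_pos.2 hc) (mul_pos_of_neg_of_neg ha hb))
  refine ⟨p0.2 ?_, p1.2 ?_, p2.2 ?_, p3.2 ?_, p4.2 ?_, p5.2 ?_, p6.2 ?_, p7.2 ?_⟩ <;>
    linarith [p0.1, p1.1, p2.1, p3.1, p4.1, p5.1, p6.1, p7.1]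

variable {k K F : Type} [Field k] [Field K] [Algebra k K] [Field F] [Algebra F K]
  {π : (K ≃ₐ[k] K) →* Perm (Fin 3)} {d : K} {y : RR K} {σ τ : K ≃ₐ[k] K} {a b c : Fˣ}
  {R : (K ≃ₐ[k] K) → F → F} {ρ s : K ≃ₐ[k] K} {d' q : F} (H : Cx π d y a b c R ρ s d' q)
  [NeZero (2 : K)]
include H

namespace Cx

theorem R_of {x z : F} (h : σ (algebraMap F K x) = algebraMap F K z) : R σ x = z :=
  (algebraMap F K).injective ((H.res _ _).trans h)

theorem R_mul (x) : R σ (R τ x) = R (σ * τ) x := H.R_of (by rw [H.res, H.res]; rfl)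

theorem R_eq (h : π σ = π τ) (e : σ d = τ d) (x) : R σ x = R τ x := H.R_of (by
  rw [H.res, ← (H.fix (σ⁻¹ * τ)).1 ⟨by rw [map_mul, ← h, map_inv, inv_mul_cancel],
    σ.symm_apply_eq.2 e.symm⟩ x]
  exact (σ.apply_symm_apply _).trans (congrArg τ ((H.fix (σ⁻¹ * τ)).1
    ⟨by rw [map_mul, ← h, map_inv, inv_mul_cancel], σ.symm_apply_eq.2 e.symm⟩ x).symm))

theorem aut {n : ℕ} (h : ∀ x, (R σ)^[n] x = R τ x) (h1 : π τ = 1) (h2 : τ d = d)
    (h3 : ¬(π σ = 1 ∧ σ d = d)) : Aut n (R σ) :=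
  ⟨fun x z => ⟨H.R_of (by simp only [map_add, H.res]), H.R_of (by simp only [map_mul, H.res])⟩,
    funext fun x => (h x).trans (H.R_of ((H.fix τ).1 ⟨h1, h2⟩ x)),
    fun e => h3 ((H.fix σ).2 fun x => by rw [← H.res, e]; rfl)⟩

theorem gen {x : F} (h1 : R ρ x = x) (h2 : R s x = x)
    (h3 : ∀ τ, π τ 0 = 0 → π τ ≠ 1 → τ d = d → R τ x = x) (σ : K ≃ₐ[k] K) :
    σ (algebraMap F K x) = algebraMap F K x := by
  obtain ⟨t, t1, t2⟩ := H.tt
  have h : ∀ τ : K ≃ₐ[k] K, τ d = d → τ (algebraMap F K x) = algebraMap F K x := fun τ e => by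
    have e1 : π ((t (π τ 0))⁻¹ * τ) 0 = 0 := by
      rw [map_mul, Perm.mul_apply, map_inv, Perm.inv_eq_iff_eq, (t1 _).1]
    have e2 : ((t (π τ 0))⁻¹ * τ) d = d := (t _).symm_apply_eq.2 (e.trans (t1 _).2.symm)
    refine Eq.trans ((t (π τ 0)).symm_apply_eq.1 ?_) (t2 _ (by rw [← H.res, h1]) _)
    by_cases e3 : π ((t (π τ 0))⁻¹ * τ) = 1
    · exact (H.fix _).1 ⟨e3, e2⟩ x
    · exact (H.res _ x).symm.trans (congrArg _ (h3 _ e1 e3 e2))
  rcases H.md.pm σ with e | e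
  · exact h σ e
  · exact (s.symm_apply_eq.1 (h (s⁻¹ * σ) (s.symm_apply_eq.2 (e.trans H.sd.symm)))).trans
      (by rw [← H.res, h2])

variable [IsGalois k K] [Algebra k F] [IsScalarTower k F K]

theorem dat (sg : Sg (k := k) (up K a) (up K b) (up K c) y) {l : List (F → F)}
    (l1 : ∀ r ∈ l, ∃ σ, r = R σ)
    (l2 : ∀ x, (∀ r ∈ l, r x = x) → ∀ σ : K ≃ₐ[k] K, σ (algebraMap F K x) = algebraMap F K x) :
    Dat l (R ρ) (R s) (a : F) b c d' q := by
  have l3 : ∀ x, (∀ σ : K ≃ₐ[k] K, σ (algebraMap F K x) = algebraMap F K x) → ∀ r ∈ l, r x = x :=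
    fun x h r m => (l1 r m).elim fun σ e => e ▸ H.R_of (h σ)
  obtain ⟨φ, w, w1, w2, w3⟩ := sg.pos
  obtain ⟨w4, w5⟩ := sg.neg φ w w1 w2
  have w6 : Rl l (w.comp (algebraMap F K)) := fun x h => by
    obtain ⟨z, e⟩ := (InfiniteGalois.mem_range_algebraMap_iff_fixed _).2 (l2 x h)
    rw [RingHom.comp_apply, ← e, w1, Complex.ofReal_im]
  have hy : ∀ σ i x, algebraMap F K x = y i → algebraMap F K (R σ x) = y (π σ i) :=
    fun σ i x e => by rw [H.res, e, H.yq]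
  refine ⟨H.aut (τ := ρ * (ρ * ρ)) (fun x => by rw [← H.R_mul, ← H.R_mul]; rfl)
      (Equiv.ext fun i => by simp only [map_mul, Perm.mul_apply, H.ρ1, f22, f12, Perm.one_apply])
      (by simp [H.ρd]) fun e => absurd (H.ρ1 0) (by rw [e.1]; decide),
    H.aut (τ := s * s) (fun x => H.R_mul x) (by simp [H.s1]) (by simp [H.sd]) fun e => H.sn e.2,
    fun x => by rw [H.R_mul, H.R_mul]; exact H.R_eq (by simp [H.s1]) (by simp [H.sd, H.ρd]) x,
    ⟨fun r m => ⟨l3 _ H.md.fa r m, l3 _ H.md.fb r m, l3 _ H.md.fc r m⟩, fun x h e => ?_⟩,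
    (algebraMap F K).injective (by rw [map_pow, H.hd, H.md.sq]; rfl),
    H.R_of (by rw [H.hd, H.ρd]), H.R_of (by rw [map_neg, H.hd, H.sd]),
    H.R_of (by rw [H.hq, H.yq, H.s1]; rfl), (algebraMap F K).injective ?_, fun u h e => ?_,
    _, w6, w2, fun j => ?_⟩
  · have r : ∀ x, (∀ r ∈ l, r x = x) → w (algebraMap F K x) = (w (algebraMap F K x)).re :=
      fun x h => Complex.ext rfl (w6 x h)
    have h0 := congrArg (w.comp (algebraMap F K)) e
    simp only [re_om_oc, map_sub, map_add, map_mul, map_pow, map_zero, RingHom.comp_apply] at h0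
    rw [r _ (l3 _ H.md.fa), r _ (l3 _ H.md.fb), r _ (l3 _ H.md.fc),
      r _ fun r m => congrArg (·.1.re) (h r m), r _ fun r m => congrArg (·.1.imI) (h r m),
      r _ fun r m => congrArg (·.1.imJ) (h r m), r _ fun r m => congrArg (·.1.imK) (h r m),
      r _ fun r m => congrArg (·.2.re) (h r m), r _ fun r m => congrArg (·.2.imI) (h r m),
      r _ fun r m => congrArg (·.2.imJ) (h r m), r _ fun r m => congrArg (·.2.imK) (h r m)] at h0
    norm_cast at h0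
    have z : ∀ x, (∀ r ∈ l, r x = x) → (w (algebraMap F K x)).re = 0 → x = 0 := fun x h e =>
      (w.comp (algebraMap F K)).injective ((r x h).trans (by rw [e, map_zero]; rfl))
    obtain ⟨p0, p1, p2, p3, p4, p5, p6, p7⟩ := pos8 w2 w4 w5 h0
    exact Prod.ext (QuaternionAlgebra.ext (z _ (fun r m => congrArg (·.1.re) (h r m)) p0)
      (z _ (fun r m => congrArg (·.1.imI) (h r m)) p1) (z _ (fun r m => congrArg (·.1.imJ) (h r m)) p2)
      (z _ (fun r m => congrArg (·.1.imK) (h r m)) p3)) (QuaternionAlgebra.ext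
      (z _ (fun r m => congrArg (·.2.re) (h r m)) p4) (z _ (fun r m => congrArg (·.2.imI) (h r m)) p5)
      (z _ (fun r m => congrArg (·.2.imJ) (h r m)) p6) (z _ (fun r m => congrArg (·.2.imK) (h r m)) p7))
  · rw [map_mul, map_mul, hy _ _ _ (hy _ _ _ H.hq), hy _ _ _ H.hq, H.hq, H.ρ1, H.ρ1, map_one,
      ← H.md.nm, mul_comm (y 0)]
    rfl
  · letI := u.toAlgebra
    haveI : Algebra.IsAlgebraic F K := .tower_top (K := k) F
    let v : K →ₐ[F] ℂ := IsAlgClosed.lift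
    obtain ⟨ψ, hψ⟩ := P011.H984.exists_tau (k := k) (w := u) fun z => h _ (l3 _ fun σ => by
      rw [← IsScalarTower.algebraMap_apply, σ.commutes])
    have := sg.neg ψ v (fun z => by
      rw [IsScalarTower.algebraMap_apply k F K, ← hψ]; exact v.commutes _)
      ((congrArg Complex.re (v.commutes a)).trans_lt e)
    exact ⟨(congrArg Complex.re (v.commutes b)).symm.trans_lt this.1,
      (congrArg Complex.re (v.commutes c)).symm.trans_lt this.2⟩
  · obtain ⟨i, e⟩ : ∃ i, algebraMap F K ((R ρ)^[j] q) = y i := by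
      induction j with
      | zero => exact ⟨1, H.hq⟩
      | succ j ih => exact ih.elim fun i e => ⟨_, by rw [iterate_succ_apply']; exact hy _ i _ e⟩
    rw [RingHom.comp_apply, e]
    exact w3 i

end Cx

omit H in
theorem dict : DICT := by
  intro k K _ _ _ _ _ π a b c d y op md sg ⟨r, hr⟩ ⟨s, s1, sd⟩
  haveI : CharZero K := charZero_of_injective_algebraMap (algebraMap k K).injective
  obtain ⟨F, fin, -, hF⟩ := P011LQ.exists_field (Γ := π.ker ⊓ MulAction.stabilizer _ d)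
    ((op.and (Op.fix ⊤ d)).imp fun _ _ h => h)
  have ran : ∀ z : K, (∀ n, π n = 1 → n d = d → n z = z) → z ∈ F := fun z h => by
    rw [← InfiniteGalois.fixedField_fixingSubgroup F]
    exact fun n => ((hF n).2 fun x m => n.2 ⟨x, m⟩).elim (h n)
  have un : ∀ u : Kˣ, (∀ σ : K ≃ₐ[k] K, σ u = u) → ∃ v : Fˣ, up K v = u := fun u h =>
    ⟨Units.mk0 ⟨u, ran _ fun n _ _ => h n⟩ fun e => u.ne_zero (congrArg Subtype.val e),
      Units.ext rfl⟩
  obtain ⟨a, rfl⟩ := un a md.fa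
  obtain ⟨b, rfl⟩ := un b md.fb
  obtain ⟨c, rfl⟩ := un c md.fc
  have r2 : (r * r) d = d := by rcases md.pm r with e | e <;> simp [e]
  obtain ⟨ρ, ρ1, ρd⟩ : ∃ ρ, (∀ i, π ρ i = i + 2) ∧ ρ d = d := by
    have : ∀ p : Perm (Fin 3), p * p ≠ 1 → (∀ i, (p * p) i = i + 2) ∨
      ∀ i, (p * p * (p * p)) i = i + 2 := by decide
    exact (this _ hr).elim (fun h => ⟨r * r, by rwa [map_mul], r2⟩) fun h =>
      ⟨r * r * (r * r), by rwa [map_mul, map_mul], by rw [AlgEquiv.mul_apply, r2, r2]⟩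
  obtain ⟨R, d', q, H⟩ : ∃ R d' q, Cx π d y a b c R ρ s d' q :=
    ⟨fun σ x => ⟨σ x, ran _ fun n h1 h2 => σ.symm.injective
      (((hF (σ⁻¹ * n * σ)).1 ⟨by simp [h1], σ.symm_apply_eq.2 (show n (σ d) = σ d by
        rcases md.pm σ with e | e <;> simp [e, h2])⟩ _ x.2).trans (σ.symm_apply_apply _).symm)⟩,
      ⟨d, ran _ fun _ _ h => h⟩,
      ⟨y 1, ran _ fun n h _ => by have := md.fy n; rw [h] at this; exact congrFun this 1⟩,
      md, fun z h => ⟨⟨z, ran z h⟩, rfl⟩,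
      fun n => (hF n).trans ⟨fun h x => h x x.2, fun h x m => h ⟨x, m⟩⟩,
      fun _ _ => rfl, ρ1, ρd, s1, sd, rfl, rfl⟩
  haveI : NumberField F := .of_module_finite k F
  by_cases h : ∃ τ, π τ 0 = 0 ∧ π τ ≠ 1 ∧ τ d = d
  · obtain ⟨ι, i1, i2, i3⟩ := h
    have e : ∀ τ, π τ 0 = 0 → π τ ≠ 1 → π τ = swap 1 2 := fun τ => by
      generalize π τ = p; revert p; decide
    have e1 : ∀ τ, π τ 0 = 0 → π τ ≠ 1 → τ d = d → R τ = R ι := fun τ a b c =>
      funext (H.R_eq ((e τ a b).trans (e ι i1 i2).symm) (c.trans i3.symm))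
    have e2 := e ι i1 i2
    obtain ⟨ψ⟩ := H.key (Q := fun f => Tri (c : F) (R ρ) f ∧ Twi (c : F) (R ρ) (R s) d' q f ∧
      Swp (R ι) f) fun f => and_congr_right' (and_congr_right'
        ⟨fun h τ a b c => e1 τ a b c ▸ h, fun h => h ι i1 i2 i3⟩)
    refine P011LT.PSimple.congr ψ fun N n => (P011ND.d4m (H.dat sg (by simp) fun x h =>
      H.gen (h _ (by simp)) (h _ (by simp)) fun τ a b c => e1 τ a b c ▸ h _ (by simp))
      (H.aut (τ := ι * ι) (fun x => H.R_mul x) (by simp [e2]) (by simp [i3]) fun h => i2 h.1)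
      (fun x => ?_) (fun x => ?_) (H.R_of (by rw [H.hd, i3]))
      (H.R_of (by rw [H.res, H.hq, H.yq, H.yq, e2, ρ1]; rfl)) N n).resolve_left
    · rw [H.R_mul, H.R_mul]
      exact H.R_eq (by simp [s1]) (by simp [sd, i3]) x
    · rw [H.R_mul, H.R_mul]
      exact H.R_eq (by
        rw [map_mul, map_mul, e2, show π ρ = Equiv.addRight 2 from Equiv.ext ρ1]; decide)
        (by simp [ρd, i3]) x
  · obtain ⟨ψ⟩ := H.key (Q := fun f => Tri (c : F) (R ρ) f ∧ Twi (c : F) (R ρ) (R s) d' q f)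
      fun f => and_congr_right' (and_iff_left fun τ a b c => (h ⟨τ, a, b, c⟩).elim).symm
    exact P011LT.PSimple.congr ψ fun N n => (P011ND.d3m (H.dat sg (by simp) fun x e =>
      H.gen (e _ (by simp)) (e _ (by simp)) fun τ a b c => (h ⟨τ, a, b, c⟩).elim) N n).resolve_left

end Vale.Agent.P011LJ
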