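import Vale.Agent.P011LH.Gq
import Vale.Agent.P011.D4.Maps
import Vale.Agent.P011.H900.Brg1

/-!
P011 (helper26): the rational points of the model, seen in the first representation.
-/

set_option linter.all false

namespace Vale.Agent.P011LJ

open Vale.Agent.P011.D4 Vale.Agent.P011.D4.Oct Vale.Agent.P011.MPQ Vale.Agent.P011LD
open Equiv Function Vale.Agent.P011LH Vale.Agent.P011.H900

variable {k K F : Type} [Field k] [Field K] [Algebra k K] [Field F] [Algebra F K]
  {π : (K ≃ₐ[k] K) →* Perm (Fin 3)} {d : K} {y : RR K} {σ τ : K ≃ₐ[k] K}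

section

variable {a b c : Kˣ}

/-- the action on octonions -/
def J (π : (K ≃ₐ[k] K) →* Perm (Fin 3)) (τ : K ≃ₐ[k] K) (x : Oct a b c) : Oct a b c :=
  cj (π τ) (cm τ x)

theorem J_mul (x : Oct a b c) : J π (σ * τ) x = J π σ (J π τ x) := by
  rw [J, J, J, map_mul, cm_cj, cj_mul, cm_mul]

theorem J_inv (x : Oct a b c) : J π τ (J π τ⁻¹ x) = x := by
  rw [← J_mul, mul_inv_cancel, J, map_one, cj_one, cm_one]

theorem J_inv' (x : Oct a b c) : J π τ⁻¹ (J π τ x) = x := J_inv (τ := τ⁻¹) x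

theorem J_add (x z : Oct a b c) : J π τ (x + z) = J π τ x + J π τ z :=
  (congrArg (cj _) (Oct.ext (cq_add _ _) (cq_add _ _))).trans (cj_add _ _)

theorem J_smul (t : K) (x : Oct a b c) : J π τ (t • x) = τ t • J π τ x :=
  (congrArg (cj _) (Oct.ext (cq_smul _ _) (cq_smul _ _))).trans (cj_smul _ _)

theorem slot {j} (h : π τ j = 0) {z z' : WW a b c} (e : std π τ z 0 = std π τ z' 0) :
    z j = z' j := by
  rw [← h, std_perm, std_perm] at e
  exact cm_bij.1 (cj_bij.1 e)

/-- the components -/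
def sl (g : Spin a b c) (i : Fin 3) : Oct a b c →ₗ[K] Oct a b c where
  toFun v := g.1 (Pi.single i v) i
  map_add' v w := by rw [Pi.single_add, map_add]; rfl
  map_smul' t v := by rw [Pi.single_smul, le_ksm]; rfl

theorem sl_sm (g : Spin a b c) : Sm (1 : K ≃ₐ[k] K) 1 1 g.1 :=
  sm_of_le _ fun x z => (g.2 x z).trans (one_smul _ _).symm

theorem sl_apply (g : Spin a b c) (x i) : g.1 x i = sl g i (x i) := by
  have := (sl_sm (k := K) g).apply x i
  rwa [cp, cj_one, cj_one] at this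

theorem sl_mul (g : Spin a b c) (v w) : sl g 0 (star (v * w)) = star (sl g 1 v * sl g 2 w) := by
  have := (sl_sm (k := K) g).cm.mul 0 v w
  simp only [cp, cj_one, Units.val_one, Pi.one_apply, one_smul] at this
  exact this

theorem sl_J {g : Spin a b c} (h : ∀ x, g.1 (std π τ x) = std π τ (g.1 x)) (i v) :
    sl g (π τ i) (J π τ v) = J π τ (sl g i v) := by
  have := congrFun (h (Pi.single i v)) (π τ i)
  rwa [sl_apply, std_perm, std_perm, Pi.single_eq_same] at this

/-- the twisted action -/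
def T (d : K) (y : RR K) (s : K ≃ₐ[k] K) (v : Oct a b c) : Oct a b c :=
  gc c (fun i => et d (y i)) 1 0 (cm s v)

theorem mo_T [NeZero (2 : K)] (h : π σ = 1) (e : σ d ≠ d) (x : WW a b c) : mo π d y σ x 0 = T d y σ (x 0) := by
  have := std_perm (π := π) (σ := σ) x 0
  rw [h, cj_one] at this
  rw [mo_neg e, T, ← this]
  rfl

end

variable {a b c : Fˣ}

variable (K c) in
/-- the rational octonions -/
def U (x : Oc (a : F) (b : F)) : OctL K a b c := oup K ((oe a b c).symm x)

theorem U_inj : Injective (U K c : Oc (a : F) (b : F) → _) := fun x z e => by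
  have h := fun m => (algebraMap F K).injective ((H24.oc_oup _ m).symm.trans
    ((congrArg (H24.oc · m) e).trans (H24.oc_oup _ m)))
  exact (oe a b c).symm.injective (ext8 (h 0) (h 1) (h 2) (h 3) (h 4) (h 5) (h 6) (h 7))

theorem U_lin (t : F) (x z : Oc (a : F) (b : F)) :
    U K c (t • x + z) = algebraMap F K t • U K c x + U K c z :=
  (oup_add (t • (oe a b c).symm x) ((oe a b c).symm z)).trans (congrArg (· + _) (oup_smul _ _))

theorem U_om (x z : Oc (a : F) (b : F)) : U K c (om (c : F) x z) = U K c x * U K c z :=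
  oup_mul ((oe a b c).symm x) ((oe a b c).symm z)

theorem U_oc (x : Oc (a : F) (b : F)) : U K c (oc x) = star (U K c x) :=
  oup_star ((oe a b c).symm x)

theorem U_ind {p : OctL K a b c → Prop} (h0 : ∀ x, p (U K c x))
    (h1 : ∀ x y, p x → p y → p (x + y)) (h2 : ∀ (t : K) x, p x → p (t • x)) : ∀ x, p x :=
  H24.oup_induction (fun x => h0 (oe a b c x)) h1 h2

section

variable {f : Oc (a : F) (b : F) → Oc (a : F) (b : F)} {g : OctL K a b c →ₗ[K] OctL K a b c}
  (e : ∀ x, g (U K c x) = U K c (f x))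
include e

theorem cm_iff {S : OctL K a b c → OctL K a b c} {S' : Oc (a : F) (b : F) → Oc (a : F) (b : F)}
    {μ : K} (h1 : ∀ v w, S (v + w) = S v + S w)
    (h2 : ∀ t v, S (t • v) = σ t • S v) (h3 : ∀ x, S (U K c x) = μ • U K c (S' x)) (h4 : μ ≠ 0) :
    (∀ x, f (S' x) = S' (f x)) ↔ ∀ v, g (S v) = S (g v) := by
  refine ⟨fun h => U_ind (fun x => ?_) (fun v w p q => ?_) fun t v p => ?_, fun h x =>
    U_inj (K := K) (c := c) (smul_right_injective _ h4 ?_)⟩
  · rw [h3, map_smul, e, e, h3, h]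
  · rw [h1, map_add, map_add, h1, p, q]
  · rw [h2, map_smul, map_smul, h2, p]
  · simpa only [h3, map_smul, e] using h (U K c x)

end

variable (π a b c d y) in
/-- the data -/
structure Cx (R : (K ≃ₐ[k] K) → F → F) (ρ s : K ≃ₐ[k] K) (d' q : F) : Prop where
  md : Md π (up K a) (up K b) (up K c) d y
  ran : ∀ z : K, (∀ n, π n = 1 → n d = d → n z = z) → z ∈ Set.range (algebraMap F K)
  fix : ∀ n, π n = 1 ∧ n d = d ↔ ∀ x, n (algebraMap F K x) = algebraMap F K x
  res : ∀ σ x, algebraMap F K (R σ x) = σ (algebraMap F K x)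
  ρ1 : ∀ i, π ρ i = i + 2
  ρd : ρ d = d
  s1 : π s = 1
  sd : s d = -d
  hd : algebraMap F K d' = d
  hq : algebraMap F K q = y 1

variable {R : (K ≃ₐ[k] K) → F → F} {ρ s : K ≃ₐ[k] K} {d' q : F} (H : Cx π d y a b c R ρ s d' q)
  [NeZero (2 : K)]
include H

namespace Cx

theorem U_ap (σ) (x : Oc (a : F) (b : F)) : U K c (ap (R σ) x) = cm σ (U K c x) :=
  ext8 (H.res _ _) (H.res _ _) (H.res _ _) (H.res _ _) (H.res _ _) (H.res _ _) (H.res _ _)
    (H.res _ _)

theorem J_N (h : π τ = 1) (e : τ d = d) (x : Oc (a : F) (b : F)) : J π τ (U K c x) = U K c x := by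
  have := (H.fix τ).1 ⟨h, e⟩
  rw [J, h, cj_one]
  exact ext8 (this _) (this _) (this _) (this _) (this _) (this _) (this _) (this _)

theorem Jρ (x : OctL K a b c) : J π ρ x = cm ρ x := cj_even (by
  rw [show π ρ = Equiv.addRight 2 from Equiv.ext H.ρ1]; decide) _

theorem yq (σ i) : σ (y i) = y (π σ i) := (ac_perm y i).symm.trans (congrFun (H.md.fy σ) _)

theorem sn : s d ≠ d := H.sd ▸ neg_ne H.md.sq

theorem T_U (x : Oc (a : F) (b : F)) : T d y s (U K c x) =
    y 2 • U K c (om (c : F) (om (c : F) (me d' q) (ap (R s) x)) (me d' (q * R ρ q))) := by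
  have h1 : ∀ t, U K c (me d' t : Oc (a : F) (b : F)) = ⟨star (et d (algebraMap F K t)), 0⟩ :=
    fun t => by
      rw [star_et]
      apply ext8 <;> simp [U, oup, me, oe, et, H.hd, map_ofNat, add_comm, div_neg, ← neg_div]
  have h2 := H.md.nm
  have h3 := H.md.y0
  have h4 : y 1 * y 0 = (y 2)⁻¹ := eq_inv_of_mul_eq_one_left (by rw [← h2]; ring)
  rw [U_om, U_om, h1, h1, H.U_ap, map_mul, H.res, H.hq, H.yq, H.ρ1,
    show (1 : Fin 3) + 2 = 0 from rfl, h4]
  refine Oct.ext ?_ ?_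
  · simp only [T, gc, fst_smul, fst_mul, star_zero, zero_mul, mul_zero, smul_zero, add_zero]
    rw [star_et' H.md.sq (inv_ne_zero (h3 2)), inv_inv, mul_smul_comm, smul_inv_smul₀ (h3 2)]
    rfl
  · simp only [T, gc, snd_smul, snd_mul, fst_mul, zero_mul, zero_add, add_zero, star_star,
      nrd_et H.md.sq, mul_assoc]
    rw [star_et' H.md.sq (h3 1), smul_mul_assoc, et_mul H.md.sq, mul_smul_comm, smul_smul, ← h4,
      inv_mul_cancel_left₀ (h3 1)]
    congr 1
    rw [div_eq_iff (h3 0), ← h2]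
    ring

variable {f : Oc (a : F) (b : F) → Oc (a : F) (b : F)} {g : OctL K a b c →ₗ[K] OctL K a b c}
  (e : ∀ x, g (U K c x) = U K c (f x))
include e

theorem twi_iff : Twi (c : F) (R ρ) (R s) d' q f ↔ ∀ v, g (T d y s v) = T d y s (g v) :=
  have h := (gc_cm (c := up K c) (c' := up K c) (p := fun i => et d (y i)) (s := 1)
    (k := k) (fun i => (nrd_et H.md.sq _).trans_ne (H.md.y0 i))
    (by simp only [nrd_et H.md.sq, H.md.nm]; ring))
  have h' := hm_cm (H.md.fa s) (H.md.fb s) (H.md.fc s)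
  cm_iff e (σ := s) (fun v w => (congrArg _ (h'.add v w)).trans (h.add _ _ _))
    (fun t v => (congrArg _ (h'.smul t v)).trans (h.smul _ _ _)) H.T_U (H.md.y0 2)

theorem swp_iff (h : π τ 0 = 0) (h' : π τ ≠ 1) :
    Swp (R τ) f ↔ ∀ v, g (J π τ v) = J π τ (g v) :=
  cm_iff e J_add J_smul (fun x => by
    rw [J, cj_odd (by revert h h'; generalize π τ = p; revert p; decide), H.U_ap, U_oc, cm_star,
      one_smul]) one_ne_zero

theorem tri_iff : (∀ x z, f (om (c : F) (ap (R ρ) (oc x)) (ap (R ρ) (ap (R ρ) (oc z)))) =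
    om (c : F) (ap (R ρ) (oc (f x))) (ap (R ρ) (ap (R ρ) (oc (f z))))) ↔
    ∀ v w, g (star (J π ρ (J π ρ v) * J π ρ w)) = star (J π ρ (J π ρ (g v)) * J π ρ (g w)) := by
  have h : ∀ x z : Oc (a : F) (b : F), star (J π ρ (J π ρ (U K c z)) * J π ρ (U K c x)) =
      U K c (om (c : F) (ap (R ρ) (oc x)) (ap (R ρ) (ap (R ρ) (oc z)))) := fun x z => by
    simp only [U_om, H.U_ap, U_oc, H.Jρ, cm_star, star_mul]
  refine ⟨fun h1 => U_ind (fun z => U_ind (fun x => ?_) (fun v w p q => ?_) fun t v p => ?_)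
    (fun v w p q u => ?_) fun t v p u => ?_, fun h1 x z => U_inj (K := K) (c := c) ?_⟩
  · rw [h, e, e, e, h, h1]
  · simp only [J_add, mul_add, star_add, map_add, p, q]
  · simp only [J_smul, mul_smul_oct, star_smul_oct, map_smul, p]
  · simp only [J_add, add_mul, star_add, map_add, p, q]
  · simp only [J_smul, smul_mul_oct, star_smul_oct, map_smul, p]
  · rw [← e, ← h, h1, e, e, h]

omit e

theorem tt : ∃ t : Fin 3 → K ≃ₐ[k] K, (∀ i, π (t i) 0 = i ∧ t i d = d) ∧
    ∀ x, ρ x = x → ∀ i, t i x = x := by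
  refine ⟨![1, ρ * ρ, ρ], fun i => ?_, fun x h i => ?_⟩ <;> fin_cases i <;>
    simp [H.ρ1, H.ρd, *]

theorem res_ex (g : Fix (mo π d y : _ → WW (up K a) (up K b) (up K c) → _)) (x) :
    ∃ z, U K c z = sl g.1 0 (U K c x) := by
  have h : ∀ m, H24.oc (sl g.1 0 (U K c x)) m ∈ Set.range (algebraMap F K) := fun m =>
    H.ran _ fun n h1 h2 => by
      have := sl_J (π := π) (τ := n) (g := g.1) (fun x => by simpa only [mo_pos h2] using g.2 n x)
        0 (U K c x)
      rw [H.J_N h1 h2, J, h1, cj_one] at this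
      exact Eq.trans (by fin_cases m <;> rfl) (congrArg (H24.oc · m) this.symm)
  choose u hu using h
  exact ⟨(⟨u 0, u 1, u 2, u 3⟩, ⟨u 4, u 5, u 6, u 7⟩),
    ext8 (hu 0) (hu 1) (hu 2) (hu 3) (hu 4) (hu 5) (hu 6) (hu 7)⟩

theorem ext_ex (g : OctL K a b c ≃ₗ[K] OctL K a b c)
    (h1 : ∀ τ, π τ 0 = 0 → τ d = d → ∀ v, g (J π τ v) = J π τ (g v))
    (h2 : ∀ v, g (T d y s v) = T d y s (g v))
    (h3 : ∀ v w, g (star (J π ρ (J π ρ v) * J π ρ w)) = star (J π ρ (J π ρ (g v)) * J π ρ (g w))) :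
    ∃ u : Fix (mo π d y : _ → WW (up K a) (up K b) (up K c) → _), ∀ v, sl u.1 0 v = g v := by
  obtain ⟨t, t1, -⟩ := H.tt
  have t2 : ∀ i, π (t i)⁻¹ i = 0 ∧ (t i)⁻¹ d = d := fun i =>
    ⟨by rw [map_inv, Perm.inv_eq_iff_eq, (t1 i).1], (t i).symm_apply_eq.2 (t1 i).2.symm⟩
  let G : WW (up K a) (up K b) (up K c) ≃ₗ[RR K] WW (up K a) (up K b) (up K c) :=
    { toFun := fun x i => J π (t i) (g (J π (t i)⁻¹ (x i)))
      invFun := fun x i => J π (t i) (g.symm (J π (t i)⁻¹ (x i)))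
      map_add' := fun x z => funext fun i => by rw [Pi.add_apply, J_add, map_add, J_add]; rfl
      map_smul' := fun u x => funext fun i => by
        rw [rsm, J_smul, map_smul, J_smul]
        exact congrArg (· • _) ((t i).apply_symm_apply _)
      left_inv := fun x => funext fun i => by simp only [J_inv', g.symm_apply_apply, J_inv]
      right_inv := fun x => funext fun i => by simp only [J_inv', g.apply_symm_apply, J_inv] }
  have g0 : ∀ x, G x 0 = g (x 0) := fun x => by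
    show J π (t 0) (g (J π (t 0)⁻¹ (x 0))) = _
    rw [← h1 (t 0) (t1 0).1 (t1 0).2, J_inv]
  have g1 : ∀ τ, τ d = d → ∀ x, G (std π τ x) = std π τ (G x) := fun τ e x =>
    ext_perm (π τ) fun i => by
      have := h1 ((t (π τ i))⁻¹ * τ * t i) (by simp only [map_mul, Perm.mul_apply, t1, t2])
        (by simp only [AlgEquiv.mul_apply, t1, t2, e]) (J π (t i)⁻¹ (x i))
      rw [J_mul, J_mul, J_mul, J_mul, J_inv] at this
      rw [std_perm]
      exact (congrArg (fun v => J π _ (g (J π _ v))) (std_perm x i)).trans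
        ((congrArg _ this).trans (J_inv _))
  have g2 : ∀ x z, G (bt x z) 0 = bt (G x) (G z) 0 := fun x z => by
    have h : ∀ x z : WW (up K a) (up K b) (up K c),
        g (star (x 1 * z 2)) = star (G x 1 * G z 2) := fun x z => by
      have e1 : ∀ (x : WW (up K a) (up K b) (up K c)) i, x (i + 2) = J π ρ (std π ρ⁻¹ x i) :=
        fun x i => by
          rw [← H.ρ1, ← J_inv (π := π) (τ := ρ) (x _)]
          exact congrArg _ ((std_perm _ _).symm.trans (by simp))
      have e2 : ρ⁻¹ d = d := ρ.symm_apply_eq.2 H.ρd.symm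
      have e3 : ∀ x : WW (up K a) (up K b) (up K c), x 1 = J π ρ (std π ρ⁻¹ x 2) := (e1 · 2)
      have e4 : ∀ x : WW (up K a) (up K b) (up K c), x 2 = J π ρ (std π ρ⁻¹ x 0) := (e1 · 0)
      rw [e3 x, e3 (G x), e4 z, e4 (G z), e4 (std π ρ⁻¹ x), e4 (std π ρ⁻¹ (G x)), h3,
        ← g0, ← g0, g1 _ e2, g1 _ e2, g1 _ e2]
    rw [g0]
    exact ((congrArg g (star_add _ _)).trans ((map_add g _ _).trans
      (congrArg₂ _ (h x z) (h z x)))).trans (star_add _ _).symm
  have g3 : ∀ x, G (mo π d y s x) = mo π d y s (G x) := fun x => funext fun j => by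
    have e : (s⁻¹ * (t j)⁻¹ * s) d = d := by
      rw [AlgEquiv.mul_apply, AlgEquiv.mul_apply, H.sd, map_neg, (t2 j).2, ← H.sd]
      exact s.symm_apply_apply d
    have h : ∀ x : WW (up K a) (up K b) (up K c), std π (t j)⁻¹ (mo π d y s x) =
        mo π d y s (std π (s⁻¹ * (t j)⁻¹ * s) x) := fun x => by
      rw [mo_neg H.sn, mo_neg H.sn, std_tw H.md, (t2 j).2, ← std_mul, ← std_mul, ← mul_assoc,
        mul_inv_cancel_left]
    refine slot (t2 j).1 ?_
    rw [← g1 _ (t2 j).2, h, h, ← g1 _ e, g0, mo_T H.s1 H.sn, mo_T H.s1 H.sn, h2, g0]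
  refine ⟨⟨⟨G, fun x z => funext fun j => slot (t2 j).1 ?_⟩, fun σ x => ?_⟩, fun v =>
    (g0 _).trans (by rw [Pi.single_eq_same])⟩
  · rw [← g1 _ (t2 j).2, (H.md.std _).mul, (H.md.std _).mul, one_smul, one_smul, g2,
      g1 _ (t2 j).2, g1 _ (t2 j).2]
  · show G _ = mo π d y σ (G x)
    rcases H.md.pm σ with e | e
    · rw [mo_pos e, mo_pos e, g1 _ e]
    · have e1 : (s⁻¹ * σ) d = d := by
        rw [AlgEquiv.mul_apply, e, ← H.sd]
        exact s.symm_apply_apply d
      have h : ∀ x : WW (up K a) (up K b) (up K c), mo π d y σ x =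
          mo π d y s (std π (s⁻¹ * σ) x) := fun x => by
        rw [mo_neg H.sn, mo_neg (e ▸ neg_ne H.md.sq), ← std_mul, mul_inv_cancel_left]
      rw [h, h, g3, g1 _ e1]

theorem key {Q : (Oc (a : F) (b : F) → Oc (a : F) (b : F)) → Prop}
    (hQ : ∀ f, Q f ↔ Tri (c : F) (R ρ) f ∧ Twi (c : F) (R ρ) (R s) d' q f ∧
      ∀ τ, π τ 0 = 0 → π τ ≠ 1 → τ d = d → Swp (R τ) f) :
    Nonempty (Fix (mo π d y : _ → WW (up K a) (up K b) (up K c) → _) ≃* grp Q) := by
  choose f hf using H.res_ex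
  have h1 : ∀ g : Fix (mo π d y : _ → WW (up K a) (up K b) (up K c) → _), ∀ τ, τ d = d →
      ∀ i v, sl g.1 (π τ i) (J π τ v) = J π τ (sl g.1 i v) := fun g τ e =>
    sl_J fun x => by simpa only [mo_pos e] using g.2 τ x
  let Φ := MonoidHom.toHomPerm (⟨⟨f, funext fun x => U_inj (hf 1 x)⟩,
    fun g g' => funext fun x => U_inj ((hf _ x).trans ((sl_apply g.1 _ 0).trans
      ((congrArg _ (hf g' x).symm).trans (hf g _).symm)))⟩ : _ →* Function.End _)
  have h2 : Injective Φ := (injective_iff_map_eq_one _).2 fun g e => by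
    obtain ⟨t, t1, -⟩ := H.tt
    have h : ∀ v, sl g.1 0 v = v := U_ind (fun x => (hf g x).symm.trans
      (congrArg (fun p : Perm _ => U K c (p x)) e)) (fun v w p q => by rw [map_add, p, q])
      fun t v p => by rw [map_smul, p]
    refine Subtype.ext (Subtype.ext (LinearEquiv.ext fun x => funext fun i => ?_))
    have := h1 g _ (t1 i).2 0 (J π (t i)⁻¹ (x i))
    rwa [h, J_inv, (t1 i).1, ← sl_apply] at this
  refine ⟨(MonoidHom.ofInjective h2).trans (MulEquiv.subgroupCongr (le_antisymm ?_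
    ((Subgroup.closure_le _).2 fun p hp => ?_)))⟩
  · rintro _ ⟨g, rfl⟩
    have e := fun x => (hf g x).symm
    refine Subgroup.subset_closure ((hQ (f g)).2 ⟨⟨fun t x z => U_inj (K := K) (c := c) ?_,
      (H.tri_iff e).2 fun v w => ?_⟩, (H.twi_iff e).2 fun v => ?_, fun τ a b c =>
      (H.swp_iff e a b).2 fun v => ?_⟩)
    · rw [hf, U_lin, U_lin, hf, hf, map_add, map_smul]
    · have h := h1 g ρ H.ρd
      simp only [H.ρ1] at h
      rw [sl_mul, ← h 0, ← h 0, ← h (0 + 2)]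
      rfl
    · have := congrFun (g.2 s (Pi.single 0 v)) 0
      rwa [sl_apply, mo_T H.s1 H.sn, mo_T H.s1 H.sn, Pi.single_eq_same] at this
    · simpa only [a] using h1 g τ c 0 v
  · obtain ⟨⟨p1, p2⟩, p3, p4⟩ := (hQ p).1 hp
    have p0 : p 0 = 0 := by simpa using p1 (-1) 0 0
    let L : Oct a b c ≃ₗ[F] Oct a b c :=
      { (oe a b c).symm.permCongr p with
        map_add' := fun x z => congrArg (oe a b c).symm (by
          simpa using p1 1 (oe a b c x) (oe a b c z))
        map_smul' := fun t x => congrArg (oe a b c).symm (by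
          simpa [p0] using p1 t (oe a b c x) 0) }
    have e : ∀ x, (H24.extE K L).toLinearMap (U K c x) = U K c (p x) := fun x => H24.extE_oup L _
    obtain ⟨u, hu⟩ := H.ext_ex (H24.extE K L) (fun τ a b => by
      by_cases h : π τ = 1
      · exact (cm_iff e (S' := id) J_add J_smul (fun x => (H.J_N h b x).trans (one_smul _ _).symm)
          one_ne_zero).1 fun _ => rfl
      · exact (H.swp_iff e a h).1 (p4 τ a h b)) ((H.twi_iff e).1 p3) ((H.tri_iff e).1 p2)
    exact ⟨u, Equiv.ext fun x => U_inj ((hf u x).trans ((hu _).trans (e x)))⟩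

end Cx

end Vale.Agent.P011LJ
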